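import Crest.Agent.N250.Re.Pt
import Crest.Agent.N250.FV.Hu0
import Crest.Agent.N250.MP.Max
import Crest.Agent.N250.T.Gau
import Crest.Agent.N250.FV.Main

-- ▼ part N250/Sg/Base
section

/-!
# Row 250, static Gaussian estimate (helper9), part 1: test functions on a slice, the weighted
Green formula and Ecker's inequality
-/

set_option autoImplicit false
open MeasureTheory Set Filter Topology
open scoped ContDiff InnerProductSpace
open Crest.GeometryTopology.MCF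

noncomputable section

namespace Crest.Agent.N250.Sg

variable {F : Mv} {t : ℝ} {p : ST} {u w f g : ST → ℝ}

/-- the Gaussian weight -/
def Gw (p : ST) : ℝ := gau 0 1 p.1

/-- `⟨x, ∇u⟩` -/
def xD (F : Mv) (u : ST → ℝ) (p : ST) : ℝ := ∑ a, p.1 a * F.D a u p

/-- slice integral against the Gaussian -/
def IG (F : Mv) (t : ℝ) (f : ST → ℝ) : ℝ := ∫ x, f (x, t) * gau 0 1 x ∂F.mu t

/-- integrable against the Gaussian -/
def Ig (F : Mv) (t : ℝ) (f : ST → ℝ) : Prop := Integrable (fun x => f (x, t) * gau 0 1 x) (F.mu t)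

/-- the drift Laplacian -/
def L0 (F : Mv) (u : ST → ℝ) (p : ST) : ℝ := F.lap u p - xD F u p / 2

/-- smooth with compact support in the slice -/
structure Tf (F : Mv) (t : ℝ) (u : ST → ℝ) : Prop where
  sm : F.Sm u
  cs : F.CS u {t}


theorem contDiff_nsq : ContDiff ℝ ∞ fun q : ST => ‖q.1‖ ^ 2 := (contDiff_norm_sq ℝ).comp contDiff_fst

theorem Gw_eq (p : ST) : Gw p = (4 * Real.pi)⁻¹ * Real.exp (-‖p.1‖ ^ 2 / 4) := by
  simp [Gw, gau]

theorem contDiff_Gw : ContDiff ℝ ∞ Gw := by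
  rw [funext Gw_eq]
  exact contDiff_const.mul (Real.contDiff_exp.comp (contDiff_nsq.neg.div_const _))

theorem sm_Gw (F : Mv) : F.Sm Gw := contDiff_Gw.contDiffOn

theorem sm_nsq (F : Mv) : F.Sm fun q : ST => ‖q.1‖ ^ 2 := contDiff_nsq.contDiffOn

theorem sm_co (F : Mv) (a : Fin 3) : F.Sm fun q : ST => q.1 a := Mv.sm_x a

theorem sm_xD (hF : F.Reg) (hu : F.Sm u) : F.Sm (xD F u) :=
  ContDiffOn.sum fun a _ => (sm_co F a).mul (hF.sm_D hu a)

theorem sm_L0 (hF : F.Reg) (hu : F.Sm u) : F.Sm (L0 F u) :=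
  ContDiffOn.sub (hF.sm_lap hu) ((sm_xD hF hu).div_const 2)

theorem D_nsq (hF : F.Reg) (hp : p ∈ F.M) (a : Fin 3) :
    F.D a (fun q : ST => ‖q.1‖ ^ 2) p = 2 * (p.1 a - F.xn 0 p * F.nu a p) := by
  have h1 : HasFDerivAt (fun q : ST => ‖q.1‖ ^ 2)
      ((2 • innerSL ℝ p.1).comp (ContinuousLinearMap.fst ℝ E ℝ)) p :=
    (hasStrictFDerivAt_norm_sq p.1).hasFDerivAt.comp p hasFDerivAt_fst
  rw [hF.D_amb hp h1.differentiableAt, h1.fderiv]
  have := Hu.PL_ee F p p.1 a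
  simp only [Mv.xn, sub_zero]
  simp [this]

/-- chain rule for radial functions -/
theorem D_rad (hF : F.Reg) (hp : p ∈ F.M) {ψ : ℝ → ℝ} {d : ℝ} (hψ : HasDerivAt ψ d (‖p.1‖ ^ 2))
    (a : Fin 3) :
    F.D a (fun q : ST => ψ (‖q.1‖ ^ 2)) p = d * (2 * (p.1 a - F.xn 0 p * F.nu a p)) := by
  rw [hF.D_comp hp (sm_nsq F) hψ, D_nsq hF hp]

theorem D_Gw (hF : F.Reg) (hp : p ∈ F.M) (a : Fin 3) :
    F.D a Gw p = -(Gw p / 2) * (p.1 a - F.xn 0 p * F.nu a p) := by
  have h : HasDerivAt (fun s : ℝ => (4 * Real.pi)⁻¹ * Real.exp (-s / 4))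
      ((4 * Real.pi)⁻¹ * (Real.exp (-‖p.1‖ ^ 2 / 4) * (-1 / 4))) (‖p.1‖ ^ 2) :=
    (((hasDerivAt_id _).neg.div_const 4).exp).const_mul _
  have := D_rad hF hp h a
  rw [funext Gw_eq, this]; ring

theorem sum_x_nu (F : Mv) (p : ST) : ∑ a, p.1 a * F.nu a p = F.xn 0 p := by
  simpa using Hu.sum_co_nu F 0 p

theorem sum_x_sq (x : E) : ∑ a, x a * x a = ‖x‖ ^ 2 := by simpa using Hu.sum_co_sq 0 x

theorem sum_D_x (hF : F.Reg) (hp : p ∈ F.M) : ∑ a, F.D a (fun q : ST => q.1 a) p = 2 := by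
  simpa using Hu.sum_D_co hF hp 0

theorem xD_sq_le (F : Mv) (u : ST → ℝ) (p : ST) : xD F u p ^ 2 ≤ ‖p.1‖ ^ 2 * F.gam u u p := by
  rw [← sum_x_sq, Mv.gam_apply]
  simpa only [xD, sq] using
    Finset.sum_mul_sq_le_sq_mul_sq Finset.univ (fun a => p.1 a) fun a => F.D a u p

/-! ### test functions -/

/-- the support of a test function also carries its gradient -/
theorem Tf.supp (hF : F.Reg) (h : Tf F t u) : ∃ K, IsCompact K ∧ K ⊆ F.M ∧
    ∀ p ∈ F.M, p.2 = t → p ∉ K → u p = 0 ∧ ∀ a, F.D a u p = 0 := by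
  obtain ⟨K, h1, h2, h3⟩ := h.cs
  refine ⟨K, h1, h2, fun p hp ht hK => ⟨h3 p hp ht hK, ?_⟩⟩
  refine ((MP.maxS_holds F hF u h.sm p hp).1 ?_).1
  filter_upwards [self_mem_nhdsWithin,
    mem_nhdsWithin_of_mem_nhds (h1.isClosed.isOpen_compl.mem_nhds hK)] with q a b
  rw [h3 p hp ht hK, h3 q a.1 (a.2.trans ht) b]

theorem Tf.cs_of (hF : F.Reg) (h : Tf F t u)
    (h0 : ∀ p ∈ F.M, u p = 0 → (∀ a, F.D a u p = 0) → g p = 0) : F.CS g {t} := by
  obtain ⟨K, h1, h2, h3⟩ := h.supp hF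
  exact ⟨K, h1, h2, fun p hp ht hK => h0 p hp (h3 p hp ht hK).1 (h3 p hp ht hK).2⟩

theorem Tf.of (hF : F.Reg) (h : Tf F t u) (hg : F.Sm g)
    (h0 : ∀ p ∈ F.M, u p = 0 → (∀ a, F.D a u p = 0) → g p = 0) : Tf F t g :=
  ⟨hg, h.cs_of hF h0⟩

theorem Tf.D (hF : F.Reg) (h : Tf F t u) (a : Fin 3) : Tf F t (F.D a u) :=
  h.of hF (hF.sm_D h.sm a) fun _ _ _ h => h a

theorem Tf.mul (hF : F.Reg) (h : Tf F t u) (hg : F.Sm g) : Tf F t fun p => u p * g p :=
  h.of hF (h.sm.mul hg) fun _ _ h _ => by simp [h]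

theorem Tf.int (hM : MuFinS) (hF : F.Reg) (h : Tf F t u) (hg : ContinuousOn g F.M)
    (h0 : ∀ p ∈ F.M, u p = 0 → (∀ a, F.D a u p = 0) → g p = 0) :
    Integrable (fun x => g (x, t)) (F.mu t) :=
  Hu.int_CS hM hF (J := {t}) rfl
    (Hu.cont_sl (S := univ) (hg.mono inter_subset_left) fun _ => trivial) (h.cs_of hF h0)

theorem Tf.intG (hM : MuFinS) (hF : F.Reg) (h : Tf F t u) (hg : ContinuousOn g F.M)
    (h0 : ∀ p ∈ F.M, u p = 0 → (∀ a, F.D a u p = 0) → g p = 0) :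
    Ig F t g :=
  h.int hM hF (g := fun p => g p * Gw p) (hg.mul (sm_Gw F).continuousOn)
    fun p hp a b => by simp [h0 p hp a b]

theorem Tf.self (hM : MuFinS) (hF : F.Reg) (h : Tf F t u) :
    Integrable (fun x => u (x, t)) (F.mu t) := h.int hM hF h.sm.continuousOn fun _ _ a _ => a

theorem Tf.selfG (hM : MuFinS) (hF : F.Reg) (h : Tf F t u) : Ig F t u :=
  h.intG hM hF h.sm.continuousOn fun _ _ a _ => a

/-- the divergence theorem for vector fields -/
theorem div0 (hM : MuFinS) (hD : DivS) (hF : F.Reg) {Y : Fin 3 → ST → ℝ}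
    (hY : ∀ a, Tf F t (Y a)) :
    Integrable (fun x => ∑ a, (F.D a (Y a) (x, t) - Y a (x, t) * F.H (x, t) * F.nu a (x, t)))
      (F.mu t) ∧
    ∫ x, ∑ a, (F.D a (Y a) (x, t) - Y a (x, t) * F.H (x, t) * F.nu a (x, t)) ∂F.mu t = 0 := by
  have i1 : ∀ a, Integrable (fun x => F.D a (Y a) (x, t)) (F.mu t) := fun a =>
    ((hY a).D hF a).self hM hF
  have i2 : ∀ a, Integrable (fun x => Y a (x, t) * F.H (x, t) * F.nu a (x, t)) (F.mu t) := fun a =>
    (((hY a).mul hF hF.sm_H).mul hF (hF.sm_nu a)).self hM hF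
  refine ⟨integrable_finsetSum _ fun a _ => (i1 a).sub (i2 a), ?_⟩
  rw [integral_finsetSum (f := fun a x => F.D a (Y a) (x, t) -
    Y a (x, t) * F.H (x, t) * F.nu a (x, t)) _ fun a _ => (i1 a).sub (i2 a)]
  refine Finset.sum_eq_zero fun a _ => ?_
  rw [integral_sub (i1 a) (i2 a), hD F hF (Y a) t a (hY a).sm (hY a).cs, sub_self]

/-- the Gaussian divergence theorem: `∫ (div Y - ⟨x, Y⟩ / 2 - shr ⟨Y, n⟩) G = 0` -/
theorem divG (hM : MuFinS) (hD : DivS) (hF : F.Reg) {Y : Fin 3 → ST → ℝ}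
    (hY : ∀ a, Tf F t (Y a)) :
    IG F t (fun p => ∑ a, F.D a (Y a) p - (∑ a, p.1 a * Y a p) / 2 -
      F.shr p * ∑ a, F.nu a p * Y a p) = 0 := by
  rw [← (div0 hM hD hF fun a => (hY a).mul hF (sm_Gw F)).2]
  refine Hu.int_congr hF fun x hx => ?_
  have e : ∀ a, F.D a (fun p => Y a p * Gw p) (x, t) = Y a (x, t) * (-(Gw (x, t) / 2) *
      (x a - F.xn 0 (x, t) * F.nu a (x, t))) + F.D a (Y a) (x, t) * Gw (x, t) := fun a => by
    rw [← D_Gw hF hx]; exact hF.D_mul hx (hY a).sm (sm_Gw F) a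
  simp only [e]
  simp only [Mv.shr, Fin.sum_univ_three, Gw]
  ring

/-! ### linearity and monotonicity -/

theorem IG_congr (hF : F.Reg) (h : ∀ x, (x, t) ∈ F.M → f (x, t) = g (x, t)) :
    IG F t f = IG F t g := Hu.int_congr hF fun x hx => by rw [h x hx]

theorem Ig.add (hf : Ig F t f) (hg : Ig F t g) : Ig F t fun p => f p + g p := by
  simp only [Ig, add_mul]; exact Integrable.add hf hg

theorem Ig.sub (hf : Ig F t f) (hg : Ig F t g) : Ig F t fun p => f p - g p := by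
  simp only [Ig, sub_mul]; exact Integrable.sub hf hg

theorem Ig.cmul (hf : Ig F t f) (c : ℝ) : Ig F t fun p => c * f p := by
  simp only [Ig, mul_assoc]; exact Integrable.const_mul hf c

theorem Ig.sum {κ : Type} (s : Finset κ) {f : κ → ST → ℝ} (hf : ∀ i, Ig F t (f i)) :
    Ig F t fun p => ∑ i ∈ s, f i p := by
  simp only [Ig, Finset.sum_mul]; exact integrable_finsetSum _ fun i _ => hf i


theorem IG_add (hf : Ig F t f) (hg : Ig F t g) :
    IG F t (fun p => f p + g p) = IG F t f + IG F t g := by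
  simp only [IG, add_mul]; exact integral_add hf hg

theorem IG_sub (hf : Ig F t f) (hg : Ig F t g) :
    IG F t (fun p => f p - g p) = IG F t f - IG F t g := by
  simp only [IG, sub_mul]; exact integral_sub hf hg

theorem IG_cmul (c : ℝ) : IG F t (fun p => c * f p) = c * IG F t f := by
  simp only [IG, mul_assoc]; exact integral_const_mul _ _

theorem IG_mono (hF : F.Reg) (hf : Ig F t f) (hg : Ig F t g)
    (h : ∀ x, (x, t) ∈ F.M → f (x, t) ≤ g (x, t)) : IG F t f ≤ IG F t g :=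
  integral_mono_ae hf hg ((Hu.ae_sl hF t).mono fun x hx =>
    mul_le_mul_of_nonneg_right (h x hx) (Gau.gau_pos 0 one_pos x).le)

theorem IG_nonneg (hF : F.Reg) (h : ∀ x, (x, t) ∈ F.M → 0 ≤ f (x, t)) : 0 ≤ IG F t f :=
  integral_nonneg_of_ae ((Hu.ae_sl hF t).mono fun x hx =>
    mul_nonneg (h x hx) (Gau.gau_pos 0 one_pos x).le)

/-- weighted Green formula -/
theorem green (hM : MuFinS) (hD : DivS) (hF : F.Reg) (hu : Tf F t u) (hw : F.Sm w) :
    IG F t (fun p => u p * L0 F w p) = -IG F t (F.gam u w) := by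
  have h := divG hM hD hF fun a => hu.mul hF (hF.sm_D hw a)
  rw [eq_neg_iff_add_eq_zero, ← IG_add ((hu.mul hF (sm_L0 hF hw)).selfG hM hF)
    (hu.intG hM hF (hF.sm_gam hu.sm hw).continuousOn fun p _ _ b => by simp [Mv.gam_apply, b]), ← h]
  refine IG_congr hF fun x hx => ?_
  have e : ∀ a, F.D a (fun p => u p * F.D a w p) (x, t) = u (x, t) * F.D a (F.D a w) (x, t) +
    F.D a u (x, t) * F.D a w (x, t) := fun a => hF.D_mul hx hu.sm (hF.sm_D hw a) a
  have e2 := hF.n_D hx w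
  simp only [e, L0, xD, Mv.lap_apply, Mv.gam_apply, Fin.sum_univ_three] at e2 ⊢
  linear_combination (F.shr (x, t) * u (x, t)) * e2

theorem Tf.sq (hF : F.Reg) (hu : Tf F t u) : Tf F t fun p => u p ^ 2 :=
  hu.of hF (ContDiffOn.pow hu.sm 2) fun _ _ a _ => by simp [a]

theorem Tf.gam (hF : F.Reg) (hu : Tf F t u) (hw : F.Sm w) : Tf F t (F.gam u w) :=
  hu.of hF (hF.sm_gam hu.sm hw) fun _ _ _ b => by simp [Mv.gam_apply, b]

/-- Ecker's inequality on a surface that need not be a shrinker -/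
theorem ecker (hM : MuFinS) (hD : DivS) (hF : F.Reg) (hu : Tf F t u) :
    IG F t (fun p => u p ^ 2 * ‖p.1‖ ^ 2) ≤ 32 * IG F t (F.gam u u) + 8 * IG F t (fun p => u p ^ 2)
      + 8 * IG F t fun p => u p ^ 2 * F.shr p ^ 2 := by
  have h2 := hu.sq hF
  have h := divG hM hD hF fun a => h2.mul hF (sm_co F a)
  have i1 := (h2.mul hF (sm_nsq F)).selfG hM hF
  have i2 := (hu.gam hF hu.sm).selfG hM hF
  have i3 := h2.selfG hM hF
  have i4 := (h2.mul hF (g := fun p => F.shr p ^ 2) (ContDiffOn.pow hF.sm_shr 2)).selfG hM hF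
  have i5 := (hu.mul hF (sm_xD hF hu.sm)).selfG hM hF
  have i6 := (h2.mul hF (hF.sm_shr.mul (hF.sm_xn 0))).selfG hM hF
  have e : IG F t (fun p => 2 * (u p * xD F u p) + 2 * u p ^ 2 - 1 / 2 * (u p ^ 2 * ‖p.1‖ ^ 2) -
      u p ^ 2 * (F.shr * F.xn 0) p) = 0 := by
    rw [← h]
    refine IG_congr hF fun x hx => ?_
    have e1 : ∀ a, F.D a (fun p => u p ^ 2 * p.1 a) (x, t) =
        u (x, t) ^ 2 * F.D a (fun q : ST => q.1 a) (x, t) +
          2 * u (x, t) * F.D a u (x, t) * x a := fun a => by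
      have := hF.D_mul hx h2.sm (sm_co F a) a
      rw [hF.D_comp hx (ψ := fun s => s ^ 2) hu.sm
        (by simpa using hasDerivAt_pow 2 (u (x, t)))] at this
      exact this
    have e2 := sum_D_x hF hx
    have e3 := sum_x_nu F (x, t)
    have e4 := sum_x_sq x
    simp only [e1, xD, Fin.sum_univ_three, Pi.mul_apply] at e2 e3 e4 ⊢
    linear_combination (-u (x, t) ^ 2) * e2 + (u (x, t) ^ 2 / 2) * e4 +
      (F.shr (x, t) * u (x, t) ^ 2) * e3
  have hle : IG F t (fun p => 2 * (u p * xD F u p) + 2 * u p ^ 2 - 1 / 2 * (u p ^ 2 * ‖p.1‖ ^ 2) -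
      u p ^ 2 * (F.shr * F.xn 0) p) ≤ IG F t (fun p => 8 * F.gam u u p + 2 * u p ^ 2 +
        2 * (u p ^ 2 * F.shr p ^ 2) - 1 / 4 * (u p ^ 2 * ‖p.1‖ ^ 2)) := by
    refine IG_mono hF ?_ ?_ fun x hx => ?_
    · exact (((i5.cmul 2).add (i3.cmul 2)).sub (i1.cmul (1 / 2))).sub i6
    · exact (((i2.cmul 8).add (i3.cmul 2)).add (i4.cmul 2)).sub (i1.cmul (1 / 4))
    · have a1 := xD_sq_le F u (x, t)
      have a2 := Hu.xn_sq_le hF hx 0
      have a3 := F.gam_self_nonneg u (x, t)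
      simp only [sub_zero, Pi.mul_apply] at a2 ⊢
      set U := u (x, t)
      set X := xD F u (x, t)
      set γ := F.gam u u (x, t)
      set N := ‖x‖ ^ 2
      set s := F.shr (x, t)
      set n := F.xn 0 (x, t)
      have hN : 0 ≤ N := sq_nonneg _
      have b1 : 2 * (U * X) ≤ 8 * γ + 1 / 8 * (U ^ 2 * N) := by
        refine (abs_le_of_sq_le_sq' ?_ (by positivity)).2
        nlinarith [mul_le_mul_of_nonneg_left a1 (sq_nonneg U), sq_nonneg (8 * γ - 1 / 8 * (U ^ 2 * N))]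
      have b2 : -(U ^ 2 * (s * n)) ≤ 2 * (U ^ 2 * s ^ 2) + 1 / 8 * (U ^ 2 * N) := by
        nlinarith [mul_nonneg (sq_nonneg U) (sq_nonneg (4 * s + n)),
          mul_le_mul_of_nonneg_left a2 (sq_nonneg U)]
      linarith
  rw [e, IG_sub (((i2.cmul 8).add (i3.cmul 2)).add (i4.cmul 2)) (i1.cmul _),
    IG_add ((i2.cmul 8).add (i3.cmul 2)) (i4.cmul 2), IG_add (i2.cmul 8) (i3.cmul 2), IG_cmul,
    IG_cmul, IG_cmul, IG_cmul] at hle
  linarith

end Crest.Agent.N250.Sg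

end
end

-- ▼ part N250/Sg/Cut

/-!
# Row 250, static Gaussian estimate (helper9), part 2: cut-offs, Cauchy–Schwarz, the energy
identity, local coercivity implies global coercivity
-/

set_option autoImplicit false
open MeasureTheory Set Filter Topology
open scoped ContDiff InnerProductSpace
open Crest.GeometryTopology.MCF

noncomputable section

namespace Crest.Agent.N250.Sg

variable {F : Mv} {t : ℝ} {p : ST} {u v w f g q : ST → ℝ}

/-- cut-off: `1` on `B_{r-1}`, `0` off `B_r` -/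
def cut (r : ℝ) (p : ST) : ℝ := Real.smoothTransition ((r ^ 2 - ‖p.1‖ ^ 2) / (2 * r - 1))

theorem contDiff_cut (r : ℝ) : ContDiff ℝ ∞ (cut r) :=
  Real.smoothTransition.contDiff.comp ((contDiff_const.sub contDiff_nsq).div_const _)

theorem sm_cut (F : Mv) (r : ℝ) : F.Sm (cut r) := (contDiff_cut r).contDiffOn

theorem cut_nonneg (r : ℝ) (p : ST) : 0 ≤ cut r p := Real.smoothTransition.nonneg _

theorem cut_le (r : ℝ) (p : ST) : cut r p ≤ 1 := Real.smoothTransition.le_one _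

theorem cut_sq_le (r : ℝ) (p : ST) : cut r p ^ 2 ≤ 1 := by
  have := cut_nonneg r p; have := cut_le r p; nlinarith

theorem cut_one {r : ℝ} (hr : 1 ≤ r) (h : ‖p.1‖ ≤ r - 1) : cut r p = 1 := by
  refine Real.smoothTransition.one_of_one_le ?_
  rw [le_div_iff₀ (by linarith)]
  nlinarith [norm_nonneg p.1]

theorem cut_zero {r : ℝ} (hr : 1 ≤ r) (h : r ≤ ‖p.1‖) : cut r p = 0 := by
  refine Real.smoothTransition.zero_of_nonpos (div_nonpos_of_nonpos_of_nonneg ?_ (by linarith))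
  nlinarith

theorem deriv_st_zero {s : ℝ} (h : s < 0 ∨ 1 < s) : deriv Real.smoothTransition s = 0 := by
  rcases h with h | h
  · have : Real.smoothTransition =ᶠ[𝓝 s] fun _ => 0 := (gt_mem_nhds h).mono fun _ hy =>
      Real.smoothTransition.zero_of_nonpos (le_of_lt hy)
    rw [this.deriv_eq, deriv_const]
  · have : Real.smoothTransition =ᶠ[𝓝 s] fun _ => 1 := (lt_mem_nhds h).mono fun _ hy =>
      Real.smoothTransition.one_of_one_le (le_of_lt hy)
    rw [this.deriv_eq, deriv_const]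

theorem exists_st : ∃ C : ℝ, ∀ s, deriv Real.smoothTransition s ^ 2 ≤ C := by
  have hc : Continuous (deriv Real.smoothTransition) :=
    (Real.smoothTransition.contDiff (n := 1)).continuous_deriv le_rfl
  obtain ⟨C, hC⟩ := isCompact_Icc.exists_bound_of_continuousOn (s := Icc (0 : ℝ) 1)
    (hc.pow 2).continuousOn
  refine ⟨max C 0, fun s => ?_⟩
  by_cases h : s ∈ Icc (0 : ℝ) 1
  · exact ((le_abs_self _).trans (hC s h)).trans (le_max_left _ _)
  · rw [deriv_st_zero (by simpa only [mem_Icc, not_and_or, not_le] using h)]; simp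

/-- bound for the gradients of the cut-offs -/
def cutK : ℝ := 16 * Classical.choose exists_st

theorem gam_cut (hF : F.Reg) (hp : p ∈ F.M) (r : ℝ) : F.gam (cut r) (cut r) p =
    deriv Real.smoothTransition ((r ^ 2 - ‖p.1‖ ^ 2) / (2 * r - 1)) ^ 2 *
      (4 * (‖p.1‖ ^ 2 - F.xn 0 p ^ 2) / (2 * r - 1) ^ 2) := by
  have h1 : HasDerivAt (fun s => Real.smoothTransition ((r ^ 2 - s) / (2 * r - 1)))
      (deriv Real.smoothTransition ((r ^ 2 - ‖p.1‖ ^ 2) / (2 * r - 1)) * (-1 / (2 * r - 1)))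
      (‖p.1‖ ^ 2) := by
    refine HasDerivAt.comp (h₂ := Real.smoothTransition) _
      ((Real.smoothTransition.contDiff (n := 1)).differentiable (by simp) _).hasDerivAt ?_
    simpa using ((hasDerivAt_id (‖p.1‖ ^ 2)).const_sub (r ^ 2)).div_const (2 * r - 1)
  have e : ∀ a, F.D a (cut r) p = _ := fun a => D_rad hF hp h1 a
  have e2 := sum_x_nu F p
  have e3 := sum_x_sq p.1
  have e4 := hF.nn hp
  simp only [Mv.gam_apply, e, Fin.sum_univ_three, div_eq_mul_inv, ← inv_pow] at e2 e3 e4 ⊢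
  set d := deriv Real.smoothTransition ((r ^ 2 - ‖p.1‖ ^ 2) * (2 * r - 1)⁻¹)
  set m := (2 * r - 1)⁻¹
  linear_combination (4 * d ^ 2 * m ^ 2) * e3 - (8 * d ^ 2 * m ^ 2 * F.xn 0 p) * e2 +
    (4 * d ^ 2 * m ^ 2 * F.xn 0 p ^ 2) * e4

theorem cutK_nonneg : 0 ≤ cutK :=
  mul_nonneg (by norm_num) ((sq_nonneg _).trans (Classical.choose_spec exists_st 0))

theorem gam_cut_zero (hF : F.Reg) (hp : p ∈ F.M) {r : ℝ} (hr : 1 ≤ r)
    (h : ‖p.1‖ < r - 1 ∨ r < ‖p.1‖) : F.gam (cut r) (cut r) p = 0 := by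
  rw [gam_cut hF hp, deriv_st_zero]; · simp
  rcases h with h | h
  · right; rw [lt_div_iff₀ (by linarith)]; nlinarith [norm_nonneg p.1]
  · left; exact div_neg_of_neg_of_pos (by nlinarith) (by linarith)

theorem gam_cut_le (hF : F.Reg) (hp : p ∈ F.M) {r : ℝ} (hr : 1 ≤ r) :
    F.gam (cut r) (cut r) p ≤ cutK := by
  by_cases h : r < ‖p.1‖
  · rw [gam_cut_zero hF hp hr (Or.inr h)]; exact cutK_nonneg
  rw [gam_cut hF hp, cutK, mul_comm 16]
  have h0 := (sq_nonneg _).trans (Classical.choose_spec exists_st 0)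
  have h1 : 4 * (‖p.1‖ ^ 2 - F.xn 0 p ^ 2) / (2 * r - 1) ^ 2 ≤ 16 := by
    rw [div_le_iff₀ (pow_pos (by linarith) 2)]
    nlinarith [norm_nonneg p.1, sq_nonneg (F.xn 0 p), not_lt.1 h]
  have h2 := Hu.xn_sq_le hF hp 0
  rw [sub_zero] at h2
  exact mul_le_mul (Classical.choose_spec exists_st _) h1 (div_nonneg (by linarith) (sq_nonneg _)) h0


theorem gam_mul (hF : F.Reg) (hp : p ∈ F.M) (hf : F.Sm f) (hg : F.Sm g) :
    F.gam (fun q => f q * g q) (fun q => f q * g q) p =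
      f p ^ 2 * F.gam g g p + 2 * (f p * g p) * F.gam f g p + g p ^ 2 * F.gam f f p := by
  have e : ∀ a, F.D a (fun q => f q * g q) p = _ := fun a => hF.D_mul hp hf hg a
  simp only [Mv.gam_apply, e, Fin.sum_univ_three]
  ring

theorem gam_mul_left (hF : F.Reg) (hp : p ∈ F.M) (hf : F.Sm f) (hg : F.Sm g) (w : ST → ℝ) :
    F.gam (fun q => f q * g q) w p = f p * F.gam g w p + g p * F.gam f w p := by
  have e : ∀ a, F.D a (fun q => f q * g q) p = _ := fun a => hF.D_mul hp hf hg a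
  simp only [Mv.gam_apply, e, Fin.sum_univ_three]
  ring

theorem two_gam_le (f g : ST → ℝ) (p : ST) (a b : ℝ) :
    2 * (a * b) * F.gam f g p ≤ a ^ 2 * F.gam f f p + b ^ 2 * F.gam g g p := by
  simp only [Mv.gam_apply, Fin.sum_univ_three]
  nlinarith [sq_nonneg (a * F.D 0 f p - b * F.D 0 g p), sq_nonneg (a * F.D 1 f p - b * F.D 1 g p),
    sq_nonneg (a * F.D 2 f p - b * F.D 2 g p)]

/-- `H¹` energy density -/
def e1 (F : Mv) (u : ST → ℝ) (p : ST) : ℝ := u p ^ 2 + F.gam u u p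

theorem e1_nonneg (F : Mv) (u : ST → ℝ) (p : ST) : 0 ≤ e1 F u p :=
  add_nonneg (sq_nonneg _) (F.gam_self_nonneg u p)

theorem Tf.ig_sq (hF : F.Reg) (hu : Tf F t u) : Ig F t fun p => u p ^ 2 :=
  (hu.sq hF).selfG muFinS_holds hF

theorem Tf.ig_gam (hF : F.Reg) (hu : Tf F t u) (hw : F.Sm w) : Ig F t (F.gam u w) :=
  (hu.gam hF hw).selfG muFinS_holds hF

theorem Tf.ig_e1 (hF : F.Reg) (hu : Tf F t u) : Ig F t (e1 F u) :=
  (hu.ig_sq hF).add (hu.ig_gam hF hu.sm)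

theorem Tf.ig_mul (hF : F.Reg) (hu : Tf F t u) (hg : ContinuousOn g F.M) :
    Ig F t fun p => u p * g p :=
  hu.intG muFinS_holds hF (hu.sm.continuousOn.mul hg) fun _ _ a _ => by simp [a]

theorem Tf.ig_mul' (hF : F.Reg) (hu : Tf F t u) (hg : ContinuousOn g F.M) :
    Ig F t fun p => g p * u p := by simpa only [mul_comm] using hu.ig_mul hF hg

theorem Tf.mul' (hF : F.Reg) (h : Tf F t u) (hg : F.Sm g) : Tf F t fun p => g p * u p := by
  simpa only [mul_comm] using h.mul hF hg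

theorem IG_e1 (hF : F.Reg) (hu : Tf F t u) :
    IG F t (e1 F u) = IG F t (fun p => u p ^ 2) + IG F t (F.gam u u) :=
  IG_add (hu.ig_sq hF) (hu.ig_gam hF hu.sm)

/-- the energy identity for `χ v` -/
theorem energy (hF : F.Reg) {χ : ST → ℝ} (hχ : Tf F t χ) (hv : F.Sm v) :
    IG F t (F.gam (fun p => χ p * v p) fun p => χ p * v p) =
      -IG F t (fun p => χ p * (χ p * v p) * L0 F v p) + IG F t fun p => v p ^ 2 * F.gam χ χ p := by
  have h1 := hχ.mul hF (g := fun p => χ p * v p) (hχ.sm.mul hv)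
  rw [green muFinS_holds divS_holds hF h1 hv, neg_neg, ← IG_add (h1.ig_gam hF hv)
    ((hχ.gam hF hχ.sm).ig_mul' hF (ContDiffOn.pow hv 2).continuousOn)]
  refine IG_congr hF fun x hx => ?_
  rw [gam_mul hF hx hχ.sm hv, gam_mul_left hF hx hχ.sm (g := fun p => χ p * v p) (hχ.sm.mul hv),
    gam_mul_left hF hx hχ.sm hv]
  ring

/-- the `L²` mass outside a big ball is small -/
theorem out_le (hF : F.Reg) (hu : Tf F t u) {R : ℝ} (hR : 0 < R) {a : ST → ℝ}
    (ha : ContinuousOn a F.M) {B : ℝ} (hB : 0 ≤ B)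
    (h : ∀ x, (x, t) ∈ F.M → a (x, t) ≤ B ∧ (‖x‖ < R → a (x, t) ≤ 0)) :
    IG F t (fun p => u p ^ 2 * a p) ≤
      B / R ^ 2 * (32 * IG F t (e1 F u) + 8 * IG F t fun p => u p ^ 2 * F.shr p ^ 2) := by
  have h1 := ecker muFinS_holds divS_holds hF hu
  have h2 : IG F t (fun p => u p ^ 2 * a p) ≤
      IG F t fun p => B / R ^ 2 * (u p ^ 2 * ‖p.1‖ ^ 2) := by
    refine IG_mono hF ((hu.sq hF).ig_mul hF ha)
      (((hu.sq hF).ig_mul hF (sm_nsq F).continuousOn).cmul _) fun x hx => ?_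
    by_cases hx' : ‖x‖ < R
    · exact (mul_nonpos_of_nonneg_of_nonpos (sq_nonneg _) ((h x hx).2 hx')).trans (by positivity)
    · have : B ≤ B / R ^ 2 * ‖x‖ ^ 2 := by
        rw [div_mul_eq_mul_div, le_div_iff₀ (by positivity)]
        exact mul_le_mul_of_nonneg_left (pow_le_pow_left₀ hR.le (not_lt.1 hx') 2) hB
      nlinarith [mul_le_mul_of_nonneg_left ((h x hx).1.trans this) (sq_nonneg (u (x, t)))]
  rw [IG_cmul] at h2
  refine h2.trans (mul_le_mul_of_nonneg_left (h1.trans ?_) (by positivity))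
  rw [IG_e1 hF hu]
  have := IG_nonneg (t := t) hF (f := fun p => u p ^ 2) fun _ _ => sq_nonneg _
  linarith

theorem uc_alg {κ K l A Gm Qq P Z : ℝ} (hl0 : 0 < l) (hl1 : l ≤ 1) (hlK : l * (K + κ + 1) = κ)
    (n1 : 0 ≤ A) (n2 : 0 ≤ Gm) (n3 : 0 ≤ Z) (hP : 0 ≤ P) (p3 : Qq ≤ K * A)
    (k1 : κ * A ≤ Gm - Qq + l / 8 * Gm + l / 8 * (A + Gm) + l / 16 * (A + Gm) + P + l / 32 * Z) :
    l / 4 * (A + Gm) ≤ Gm - Qq + P + Z := by
  have a1 := mul_le_mul_of_nonneg_left k1 (sub_nonneg.2 hl1)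
  have a2 := mul_le_mul_of_nonneg_left p3 hl0.le
  have a3 : (1 - l) * (κ * A) = l * (K * A) + l * A := by linear_combination (-A) * hlK
  have a4 : l / 32 * Z ≤ Z := by nlinarith
  have a5 : 0 ≤ l * (l / 8 * Gm + l / 8 * (A + Gm) + l / 16 * (A + Gm) + P + l / 32 * Z) := by
    positivity
  nlinarith [mul_nonneg hl0.le n1, mul_nonneg hl0.le n2]

/-- coercivity for functions supported in `B_{R+1}` (only the `L²` norm is controlled, up to a
small error) implies coercivity -/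
theorem uc_of_loc {κ K : ℝ} (hκ : 0 < κ) (hK : 0 ≤ K) : ∃ θ R₀ κ' : ℝ, 0 < θ ∧ 0 < R₀ ∧ 0 < κ' ∧
    ∀ (F : Mv) (t R : ℝ) (q u : ST → ℝ) (P : ℝ), F.Reg → R₀ ≤ R → ContinuousOn q F.M → Tf F t u →
      (∀ x, (x, t) ∈ F.M → q (x, t) ≤ K) → 0 ≤ P →
      κ * IG F t (fun p => (cut (R + 1) p * u p) ^ 2) ≤
        IG F t (F.gam (fun p => cut (R + 1) p * u p) fun p => cut (R + 1) p * u p) -
          IG F t (fun p => (cut (R + 1) p * u p) ^ 2 * q p) +
          θ * IG F t (e1 F fun p => cut (R + 1) p * u p) + P →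
      κ' * IG F t (e1 F u) ≤ IG F t (F.gam u u) - IG F t (fun p => u p ^ 2 * q p) + P +
        IG F t fun p => u p ^ 2 * F.shr p ^ 2 := by
  have hc := cutK_nonneg
  obtain ⟨l, hl0, hl1, hlK⟩ : ∃ l : ℝ, 0 < l ∧ l ≤ 1 ∧ l * (K + κ + 1) = κ :=
    ⟨κ / (K + κ + 1), by positivity, by rw [div_le_one (by positivity)]; linarith, by field_simp⟩
  obtain ⟨θ, hθ0, hθ1⟩ : ∃ θ : ℝ, 0 < θ ∧ θ * (16 * (2 * cutK + 2)) = l :=
    ⟨l / (16 * (2 * cutK + 2)), by positivity, by field_simp⟩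
  obtain ⟨B, hB⟩ : ∃ B : ℝ, B = κ + K + cutK + 8 * cutK / l := ⟨_, rfl⟩
  have hB0 : 0 ≤ B := by rw [hB]; positivity
  refine ⟨θ, √(256 * (B + 1) / l) + 1, l / 4, hθ0, by positivity, by positivity,
    fun F t R q u P hF hR hq hu hqK hP h => ?_⟩
  have hR1 : 1 ≤ R := by linarith [Real.sqrt_nonneg (256 * (B + 1) / l)]
  have hBR : B / R ^ 2 ≤ l / 256 := by
    have h1 : 256 * (B + 1) / l ≤ R ^ 2 := by
      rw [← Real.sq_sqrt (show 0 ≤ 256 * (B + 1) / l by positivity)]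
      exact pow_le_pow_left₀ (Real.sqrt_nonneg _) (by linarith) 2
    rw [div_le_iff₀ hl0] at h1
    rw [div_le_iff₀ (by positivity)]
    linarith
  set χ := cut (R + 1) with hχ
  have sχ : F.Sm χ := sm_cut F _
  have hw : Tf F t fun p => χ p * u p := hu.mul' hF sχ
  set a : ST → ℝ := fun p => (κ + K) * (1 - χ p ^ 2) + (1 + 8 / l) * F.gam χ χ p with ha
  have ca : ContinuousOn a F.M :=
    (continuousOn_const.mul (continuousOn_const.sub (sχ.continuousOn.pow 2))).add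
      (continuousOn_const.mul (hF.sm_gam sχ sχ).continuousOn)
  have o := out_le hF hu (by linarith : 0 < R) ca hB0 fun x hx => ⟨by
    have a1 := gam_cut_le hF hx (r := R + 1) (by linarith)
    have a2 : (1 + 8 / l) * F.gam χ χ (x, t) ≤ (1 + 8 / l) * cutK := by gcongr
    have a3 : (κ + K) * (1 - χ (x, t) ^ 2) ≤ (κ + K) * 1 := by
      gcongr; linarith [sq_nonneg (χ (x, t))]
    have a4 : (1 + 8 / l) * cutK = cutK + 8 * cutK / l := by ring
    simp only [ha, hB]; linarith, fun hx' => by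
    simp only [ha, hχ]
    rw [gam_cut_zero hF hx (by linarith) (Or.inl (by simpa using hx')),
      cut_one (by linarith) (by simpa using hx'.le)]
    simp⟩
  have i1 := hu.ig_sq hF
  have i2 := hu.ig_gam hF hu.sm
  have i3 := (hu.sq hF).ig_mul hF hq
  have i4 := (hu.sq hF).ig_mul hF ca
  have j1 := hw.ig_sq hF
  have j2 := hw.ig_gam hF hw.sm
  have j3 := (hw.sq hF).ig_mul hF hq
  have p1 : IG F t (fun p => F.gam (fun p => χ p * u p) (fun p => χ p * u p) p -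
      (χ p * u p) ^ 2 * q p - κ * (χ p * u p) ^ 2) ≤ IG F t fun p =>
      (1 + l / 8) * F.gam u u p - u p ^ 2 * q p - κ * u p ^ 2 + u p ^ 2 * a p := by
    refine IG_mono hF ((j2.sub j3).sub (j1.cmul _))
      ((((i2.cmul _).sub i3).sub (i1.cmul _)).add i4) fun x hx => ?_
    rw [gam_mul hF hx sχ hu.sm]
    have a1 := two_gam_le (F := F) χ u (x, t) (u (x, t) * (8 / l)) (χ (x, t))
    have a2 := cut_sq_le (R + 1) (x, t)
    have a3 := F.gam_self_nonneg u (x, t)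
    have a4 := hqK x hx
    simp only [ha]
    rw [← hχ] at a2
    set U := u (x, t)
    set c := χ (x, t)
    have b1 : 2 * (c * U) * F.gam χ u (x, t) ≤
        8 / l * (U ^ 2 * F.gam χ χ (x, t)) + l / 8 * (c ^ 2 * F.gam u u (x, t)) := by
      have := mul_le_mul_of_nonneg_left a1 (show 0 ≤ l / 8 by positivity)
      have e1 : l / 8 * (2 * (U * (8 / l) * c) * F.gam χ u (x, t)) =
          2 * (c * U) * F.gam χ u (x, t) := by field_simp
      have e2 : l / 8 * ((U * (8 / l)) ^ 2 * F.gam χ χ (x, t)) =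
          8 / l * (U ^ 2 * F.gam χ χ (x, t)) := by field_simp
      rw [e1, mul_add, e2] at this
      exact this
    have b2 : c ^ 2 * F.gam u u (x, t) ≤ F.gam u u (x, t) := by nlinarith
    have b3 : U ^ 2 * (1 - c ^ 2) * q (x, t) ≤ U ^ 2 * (1 - c ^ 2) * K :=
      mul_le_mul_of_nonneg_left a4 (mul_nonneg (sq_nonneg _) (by linarith))
    nlinarith [mul_le_mul_of_nonneg_left b2 (show 0 ≤ l / 8 by positivity)]
  have p2 : IG F t (e1 F fun p => χ p * u p) ≤ IG F t fun p => (2 * cutK + 2) * e1 F u p := by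
    refine IG_mono hF (hw.ig_e1 hF) ((hu.ig_e1 hF).cmul _) fun x hx => ?_
    simp only [e1]
    rw [gam_mul hF hx sχ hu.sm]
    have a1 := two_gam_le (F := F) χ u (x, t) (u (x, t)) (χ (x, t))
    have a2 := cut_sq_le (R + 1) (x, t)
    have a3 := F.gam_self_nonneg u (x, t)
    have a4 := gam_cut_le hF hx (r := R + 1) (by linarith)
    rw [← hχ] at a2 a4
    nlinarith [mul_le_mul_of_nonneg_left a4 (sq_nonneg (u (x, t))),
      mul_le_mul_of_nonneg_left a2 (sq_nonneg (u (x, t))), mul_le_mul_of_nonneg_left a2 a3,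
      mul_nonneg hc a3]
  have p3 : IG F t (fun p => u p ^ 2 * q p) ≤ IG F t fun p => K * u p ^ 2 :=
    IG_mono hF i3 (i1.cmul _) fun x hx => by nlinarith [hqK x hx, sq_nonneg (u (x, t))]
  rw [IG_sub (j2.sub j3) (j1.cmul _), IG_sub j2 j3, IG_cmul,
    IG_add (((i2.cmul _).sub i3).sub (i1.cmul _)) i4, IG_sub ((i2.cmul _).sub i3) (i1.cmul _),
    IG_sub (i2.cmul _) i3, IG_cmul, IG_cmul] at p1
  rw [IG_cmul] at p2 p3
  have n1 := IG_nonneg (t := t) hF (f := fun p => u p ^ 2) fun _ _ => sq_nonneg _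
  have n2 := IG_nonneg (t := t) hF (f := F.gam u u) fun _ _ => F.gam_self_nonneg _ _
  have n3 := IG_nonneg (t := t) hF (f := fun p => u p ^ 2 * F.shr p ^ 2) fun _ _ => by positivity
  have p4 := mul_le_mul_of_nonneg_left p2 hθ0.le
  rw [IG_e1 hF hu] at o p4 ⊢
  set A := IG F t fun p => u p ^ 2
  set Gm := IG F t (F.gam u u)
  set Z := IG F t fun p => u p ^ 2 * F.shr p ^ 2
  set Qq := IG F t fun p => u p ^ 2 * q p
  have o2 : B / R ^ 2 * (32 * (A + Gm) + 8 * Z) ≤ l / 256 * (32 * (A + Gm) + 8 * Z) := by gcongr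
  have t1 : θ * ((2 * cutK + 2) * (A + Gm)) = l / 16 * (A + Gm) := by rw [← hθ1]; ring
  have k1 : κ * A ≤ Gm - Qq + l / 8 * Gm + l / 8 * (A + Gm) + l / 16 * (A + Gm) + P + l / 32 * Z := by
    linarith
  exact uc_alg hl0 hl1 hlK n1 n2 n3 hP p3 k1

end Crest.Agent.N250.Sg

end
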