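import Crest.Agent.N250.Tb.J
import Crest.Agent.N250.A.Good
import Crest.Agent.N250.Tr.Meas
import Crest.Agent.N250.R.Stm
import Crest.Agent.N250.Tb.GR
import Crest.Agent.N250.T.Reach

-- ▼ part N250/Sg/En
section

/-!
# Row 250 (helper88): EN, the Gaussian area of `N` against the Gaussian area of the model
-/

set_option autoImplicit false
open MeasureTheory Set Filter Topology Metric
open scoped ContDiff InnerProductSpace ENNReal NNReal
open Crest.GeometryTopology.MCF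

noncomputable section

namespace Crest.Agent.N250.Sg

open Tb

/-- the algebra of EN -/
theorem en_alg {c D a y : ℝ} (hc : c ^ 2 ≤ 1) (hD : 3 / 8 ≤ D) {z : ℝ} (hz : 0 ≤ z)
    (hy : D - 1 - a = y) (hyz : y ≤ z) :
    1 ≤ Real.exp a * (|c| / D) + ((1 - c ^ 2) + 3 * z) := by
  have h0 : 0 < D := by linarith
  have h1 : |c| ≤ 1 := (sq_le_one_iff_abs_le_one _).1 hc
  have h2 : c ^ 2 ≤ |c| := by rw [← sq_abs]; nlinarith [abs_nonneg c]
  have h3 : (1 + a) * (|c| / D) ≤ Real.exp a * (|c| / D) :=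
    mul_le_mul_of_nonneg_right (by linarith [Real.add_one_le_exp a]) (by positivity)
  have h4 : (1 + a) * (|c| / D) = |c| - y * (|c| / D) := by rw [← hy]; field_simp; ring
  have h5 : |c| / D ≤ 3 := by rw [div_le_iff₀ h0]; linarith
  have h6 : y * (|c| / D) ≤ z * 3 :=
    (mul_le_mul_of_nonneg_right hyz (by positivity)).trans (mul_le_mul_of_nonneg_left h5 hz)
  linarith

variable {S N : Mv} {t : ℝ} {W : Set E} {pr : E → E} {sd : E → ℝ} {x : E} {p : ST}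

theorem gau_pr (h : Tub S t W pr sd) (hS : S.Reg) (hx : x ∈ W) :
    gau 0 1 (pr x) = gau 0 1 x * Real.exp (sd x * S.xn 0 (pr x, t) / 2 + sd x ^ 2 / 4) := by
  have e : ‖x‖ ^ 2 = ‖pr x‖ ^ 2 + 2 * (sd x * S.xn 0 (pr x, t)) + sd x ^ 2 := by
    conv_lhs => rw [h.dec x hx]
    rw [norm_add_sq_real, inner_smul_right, norm_smul, hS.norm_n (h.mem x hx), mul_one,
      Real.norm_eq_abs, sq_abs, Mv.xn, sub_zero]
  unfold gau
  rw [sub_zero, sub_zero, e]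
  conv_rhs => rw [mul_assoc, ← Real.exp_add]
  congr 2; ring

/-- **EN**, pointwise -/
theorem en_pt (h : Tub S t W pr sd) (hS : S.Reg) (hN : N.Reg) (hp : p ∈ N.M) (hW : p.1 ∈ W)
    {κ : ℝ} (hκ : 0 ≤ κ) (hA : S.A2 (pr p.1, t) ≤ κ ^ 2) (hd : |sd p.1| * κ ≤ 1 / 2) :
    gau 0 1 p.1 ≤ Jac S t pr sd N p * gau 0 1 (pr p.1) +
      (N.gam (ht sd) (ht sd) p + 3 * κ ^ 2 * sd p.1 ^ 2 + 3 * (|sd p.1| * |S.shr (pr p.1, t)|)) *
        gau 0 1 p.1 := by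
  have hK : S.K (pr p.1, t) ≤ κ ^ 2 := by
    have := (le_abs_self _).trans (abs_K_le hS (h.mem _ hW))
    nlinarith [sq_nonneg κ]
  have hD := Tub.dt_ge hκ hA hd
  have key := en_alg (a := sd p.1 * S.xn 0 (pr p.1, t) / 2 + sd p.1 ^ 2 / 4)
    (h.cs_sq_le hS hN hp hW) hD
    (z := κ ^ 2 * sd p.1 ^ 2 + |sd p.1| * |S.shr (pr p.1, t)|) (by positivity) rfl (by
      have h1 := le_abs_self (sd p.1 * S.shr (pr p.1, t))
      rw [abs_mul] at h1
      have h2 := mul_le_mul_of_nonneg_left hK (sq_nonneg (sd p.1))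
      rw [Mv.shr] at h1 ⊢
      rw [dt]
      nlinarith [sq_nonneg (sd p.1)])
  rw [gau_pr h hS hW, h.gam_ht hS hN hp hW, Jac, abs_of_pos (a := dt S t pr sd p.1) (by linarith)]
  have := mul_le_mul_of_nonneg_left key (A.gau_pos one_pos 0 p.1).le
  nlinarith

variable {s : ℝ} {B B' : Set E}

/-- **EN**, integrated -/
theorem en (h : Tub S t W pr sd) (hS : S.Reg) (hN : N.Reg) (hB : MeasurableSet B)
    (hW : N.sl s ∩ B ⊆ W) (hi : InjOn pr (N.sl s ∩ B)) {κ : ℝ} (hκ : 0 ≤ κ)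
    (hA : ∀ x ∈ N.sl s, x ∈ B → S.A2 (pr x, t) ≤ κ ^ 2 ∧ |sd x| * κ ≤ 1 / 2 ∧ pr x ∈ B') :
    ∫⁻ x in B, ENNReal.ofReal (gau 0 1 x) ∂N.mu s ≤
      ∫⁻ y in B', ENNReal.ofReal (gau 0 1 y) ∂S.mu t +
        ∫⁻ x in B, ENNReal.ofReal ((N.gam (ht sd) (ht sd) (x, s) + 3 * κ ^ 2 * sd x ^ 2 +
          3 * (|sd x| * |S.shr (pr x, t)|)) * gau 0 1 x) ∂N.mu s := by
  have hA0 : MeasurableSet (N.sl s ∩ B) := (Tr.meas_sl hN s).inter hB
  have hs : N.sl s ∩ B ⊆ N.sl s ∩ W := fun x hx => ⟨hx.1, hW hx⟩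
  have e : (N.mu s).restrict B = (N.mu s).restrict (N.sl s ∩ B) := by
    rw [Mv.mu, Measure.restrict_restrict hB, Measure.restrict_restrict hA0, inter_comm (N.sl s) B,
      inter_assoc, inter_self]
  have hJ := h.lint_J hS hN hA0 hs hi fun y => ENNReal.ofReal (gau 0 1 y)
  have hm : AEMeasurable (fun x => ENNReal.ofReal (Jac S t pr sd N (x, s)) *
      ENNReal.ofReal (gau 0 1 (pr x))) ((N.mu s).restrict (N.sl s ∩ B)) :=
    (((h.cont_Jac hS hN s).mono hs).aemeasurable hA0).ennreal_ofReal.mul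
      (((A.gau_cont 0 1).comp_continuousOn (h.spr.continuousOn.mono hW)).aemeasurable
        hA0).ennreal_ofReal
  have sub : pr '' (N.sl s ∩ B) ⊆ B' := by
    rintro _ ⟨x, hx, rfl⟩
    exact (hA x hx.1 hx.2).2.2
  refine le_trans ?_ (add_le_add_left (lintegral_mono_set sub) _)
  rw [hJ, e, ← lintegral_add_left' hm]
  refine lintegral_mono_ae ?_
  filter_upwards [ae_restrict_mem hA0] with x hx
  obtain ⟨a1, a2, -⟩ := hA x hx.1 hx.2
  rw [← ENNReal.ofReal_mul (Tub.Jac_nonneg _)]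
  exact (ENNReal.ofReal_le_ofReal (en_pt (p := (x, s)) h hS hN hx.1 (hW hx) hκ a1 a2)).trans
    ENNReal.ofReal_add_le

/-- the Gaussian tail with exponent `(1 - k⁻¹) / 4` -/
theorem gau_tailk {r k : ℝ} (hk : 1 ≤ k) (hr : 0 ≤ r) (hx : r ≤ ‖x‖) :
    gau 0 1 x ≤ k * Real.exp (-(1 - k⁻¹) * r ^ 2 / 4) * gau 0 k x := by
  have hp := Real.pi_pos
  have k0 : 0 < k := by linarith
  have e : k * Real.exp (-(1 - k⁻¹) * r ^ 2 / 4) * gau 0 k x =
      (4 * Real.pi * 1)⁻¹ * Real.exp (-(1 - k⁻¹) * r ^ 2 / 4 + -‖x - 0‖ ^ 2 / (4 * k)) := by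
    unfold gau
    rw [Real.exp_add]; field_simp
  rw [e, gau, sub_zero]
  refine mul_le_mul_of_nonneg_left (Real.exp_le_exp.2 ?_) (by positivity)
  have h1 := pow_le_pow_left₀ hr hx 2
  have h2 : 0 ≤ 1 - k⁻¹ := sub_nonneg.2 (inv_le_one_of_one_le₀ hk)
  have h3 : -‖x‖ ^ 2 / (4 * k) = -(k⁻¹ * ‖x‖ ^ 2) / 4 := by field_simp
  rw [h3]
  nlinarith [mul_le_mul_of_nonneg_left h1 h2]

/-- Gaussian area and Gaussian tail of a surface with bounded area ratios -/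
theorem gau_out : ∃ C : ℝ, 1 ≤ C ∧ ∀ (N : Mv) (Λ s : ℝ), 0 ≤ Λ → N.AR Λ →
    ∫⁻ x, ENNReal.ofReal (gau 0 1 x) ∂N.mu s ≤ ENNReal.ofReal (C * Λ) ∧ ∀ k r, 1 ≤ k → 0 ≤ r →
      ∫⁻ x in (ball 0 r)ᶜ, ENNReal.ofReal (gau 0 1 x) ∂N.mu s ≤
        ENNReal.ofReal (k * Real.exp (-(1 - k⁻¹) * r ^ 2 / 4) * (C * Λ)) := by
  obtain ⟨C, hC, h⟩ := A.gau_ar
  refine ⟨C, hC, fun N Λ s hΛ hN => ⟨h _ Λ 0 1 one_pos hΛ (hN s 0), fun k r hk hr => ?_⟩⟩
  have k0 : 0 < k := by linarith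
  calc _ ≤ ∫⁻ x in (ball 0 r)ᶜ, ENNReal.ofReal (k * Real.exp (-(1 - k⁻¹) * r ^ 2 / 4)) *
        ENNReal.ofReal (gau 0 k x) ∂N.mu s := by
        refine lintegral_mono_ae ?_
        filter_upwards [ae_restrict_mem measurableSet_ball.compl] with x hx
        rw [← ENNReal.ofReal_mul (by positivity)]
        exact ENNReal.ofReal_le_ofReal (gau_tailk hk hr (by simpa using hx))
    _ ≤ ENNReal.ofReal (k * Real.exp (-(1 - k⁻¹) * r ^ 2 / 4)) * ENNReal.ofReal (C * Λ) := by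
        rw [lintegral_const_mul' _ _ ENNReal.ofReal_ne_top]
        exact mul_le_mul_right ((setLIntegral_le_lintegral _ _).trans
          (h _ Λ 0 k k0 hΛ (hN s 0))) _
    _ = _ := by rw [← ENNReal.ofReal_mul (by positivity)]

/-- **EN**, final form: the Gaussian area of `N` is at most `Φ` (the bound for the model) plus
quadratic terms plus the tail `T` -/
theorem fs_le {κ e r Φ I Θ T : ℝ} (h : Tub S t W pr sd) (hS : S.Reg) (hN : N.Reg) (hκ : 0 ≤ κ)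
    (hΦ : 0 ≤ Φ) (hI : 0 ≤ I) (hΘ : 0 ≤ Θ) (hT : 0 ≤ T) (hW : N.sl s ∩ ball 0 r ⊆ W)
    (hi : InjOn pr (N.sl s ∩ ball 0 r))
    (hA : ∀ x ∈ N.sl s, ‖x‖ < r → S.A2 (pr x, t) ≤ κ ^ 2 ∧ |sd x| * κ ≤ 1 / 2 ∧ pr x ∈ B' ∧
      |S.shr (pr x, t)| ≤ e)
    (h1 : ∫⁻ y in B', ENNReal.ofReal (gau 0 1 y) ∂S.mu t ≤ ENNReal.ofReal Φ)
    (h2 : ∫⁻ x in ball 0 r, ENNReal.ofReal ((sd x ^ 2 + N.gam (ht sd) (ht sd) (x, s)) * gau 0 1 x)
      ∂N.mu s ≤ ENNReal.ofReal I)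
    (g1 : ∫⁻ x, ENNReal.ofReal (gau 0 1 x) ∂N.mu s ≤ ENNReal.ofReal Θ)
    (g2 : ∫⁻ x in (ball 0 r)ᶜ, ENNReal.ofReal (gau 0 1 x) ∂N.mu s ≤ ENNReal.ofReal T) :
    N.Fs s 0 1 ≤ Φ + (3 * κ ^ 2 + 2) * I + 2 * e ^ 2 * Θ + T := by
  have gm : Measurable fun x : E => ENNReal.ofReal (gau 0 1 x) :=
    (A.gau_cont 0 1).measurable.ennreal_ofReal
  have k1 := en h hS hN measurableSet_ball hW hi hκ (B' := B') fun x hx hb =>
    have a := hA x hx (mem_ball_zero_iff.1 hb)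
    ⟨a.1, a.2.1, a.2.2.1⟩
  have k2 : ∫⁻ x in ball 0 r, ENNReal.ofReal ((N.gam (ht sd) (ht sd) (x, s) + 3 * κ ^ 2 * sd x ^ 2 +
      3 * (|sd x| * |S.shr (pr x, t)|)) * gau 0 1 x) ∂N.mu s ≤
      ENNReal.ofReal ((3 * κ ^ 2 + 2) * I) + ENNReal.ofReal (2 * e ^ 2 * Θ) := by
    calc _ ≤ ∫⁻ x in ball 0 r, (ENNReal.ofReal (3 * κ ^ 2 + 2) * ENNReal.ofReal ((sd x ^ 2 +
          N.gam (ht sd) (ht sd) (x, s)) * gau 0 1 x) +
          ENNReal.ofReal (2 * e ^ 2) * ENNReal.ofReal (gau 0 1 x)) ∂N.mu s := by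
          refine lintegral_mono_ae ?_
          filter_upwards [ae_restrict_of_ae (Tr.ae_sl hN s), ae_restrict_mem measurableSet_ball]
            with x hx hb
          rw [← ENNReal.ofReal_mul (by positivity), ← ENNReal.ofReal_mul (by positivity)]
          have a := (hA x hx (mem_ball_zero_iff.1 hb)).2.2.2
          have g0 := (A.gau_pos one_pos 0 x).le
          have gn := N.gam_self_nonneg (ht sd) (x, s)
          rw [← ENNReal.ofReal_add (by positivity) (by positivity),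
            ← mul_assoc (3 * κ ^ 2 + 2), ← add_mul]
          refine ENNReal.ofReal_le_ofReal (mul_le_mul_of_nonneg_right ?_ g0)
          have b := mul_le_mul_of_nonneg_left a (abs_nonneg (sd x))
          nlinarith [sq_nonneg (|sd x| - e), sq_abs (sd x), mul_nonneg (sq_nonneg κ) gn,
            sq_nonneg (sd x), sq_nonneg e]
      _ ≤ _ := by
          rw [lintegral_add_right _ (gm.const_mul _), lintegral_const_mul' _ _ ENNReal.ofReal_ne_top,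
            lintegral_const_mul' _ _ ENNReal.ofReal_ne_top,
            ENNReal.ofReal_mul (p := 3 * κ ^ 2 + 2) (by positivity),
            ENNReal.ofReal_mul (p := 2 * e ^ 2) (by positivity)]
          exact add_le_add (mul_le_mul_right h2 _)
            (mul_le_mul_right ((setLIntegral_le_lintegral _ _).trans g1) _)
  have k3 : ∫⁻ x, ENNReal.ofReal (gau 0 1 x) ∂N.mu s ≤ ENNReal.ofReal
      (Φ + (3 * κ ^ 2 + 2) * I + 2 * e ^ 2 * Θ + T) := by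
    rw [← lintegral_add_compl _ (measurableSet_ball (x := (0 : E)) (ε := r))]
    refine (add_le_add (k1.trans (add_le_add h1 k2)) g2).trans (le_of_eq ?_)
    rw [← ENNReal.ofReal_add (by positivity) (by positivity),
      ← ENNReal.ofReal_add hΦ (by positivity), ← ENNReal.ofReal_add (by positivity) hT]
    congr 1; ring
  rw [Mv.Fs, integral_eq_lintegral_of_nonneg_ae (ae_of_all _ fun x => (A.gau_pos one_pos 0 x).le)
    (A.gau_cont 0 1).aestronglyMeasurable]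
  exact ENNReal.toReal_le_of_le_ofReal (by positivity) k3

end Crest.Agent.N250.Sg

end
end

-- ▼ part N250/Sg/EnS

/-!
# Row 250 (helper88): the leaf `R.EnS`
-/

set_option autoImplicit false
open MeasureTheory Set Filter Topology Metric
open scoped ContDiff InnerProductSpace ENNReal NNReal
open Crest.GeometryTopology.MCF

noncomputable section

namespace Crest.Agent.N250.Sg

open Tb

variable {N G : Mv} {Λ m ρ₀ ρ₁ r δ : ℝ}

theorem ctx_reach (hc : R.Ctx N Λ G m ρ₀) : ∀ y ∈ G.sl 0, y ∈ ball (0 : E) m → G.Reach (y, 0) ρ₀ :=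
  fun y hy hb => hc.greach y hy (mem_ball_zero_iff.1 hb)

theorem ctx_tub (hc : R.Ctx N Λ G m ρ₀) : Tub G 0 (tube G 0 (ball 0 m) ρ₀) (pr G 0) (sd G 0) :=
  tub hc.greg (ctx_reach hc) isOpen_ball

theorem ctx_closed (hc : R.Ctx N Λ G m ρ₀) : IsClosed (N.sl 0) :=
  hc.closed.preimage (f := fun x : E => ((x, 0) : ST)) (by fun_prop)

theorem ctx_A2 (hc : R.Ctx N Λ G m ρ₀) (h0 : 0 < ρ₀) {x : E} (hx : x ∈ tube G 0 (ball 0 m) ρ₀) :
    G.A2 (pr G 0 x, 0) ≤ (2 / ρ₀) ^ 2 := by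
  have := (reachAS_holds G hc.greg (pr G 0 x, 0) (pr_mem hc.greg (ctx_reach hc) hx) ρ₀ h0
    (pr_reach hc.greg (ctx_reach hc) hx)).2
  refine this.trans ?_
  rw [div_pow]
  exact div_le_div_of_nonneg_right (by norm_num) (by positivity)

/-- under `P(r)` the surface `N ∩ B_{r-1}` is a graph of small slope over the model -/
theorem en_gr (hc : R.Ctx N Λ G m ρ₀) (h0 : 0 < ρ₀) (h01 : ρ₀ ≤ 1) (h1 : 0 < ρ₁) (hδ : 0 < δ)
    (hδ' : δ ≤ min ρ₀ ρ₁ / 100) (hN : R.Nr N G m ρ₀ r ρ₁ δ) :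
    (∀ x ∈ N.sl 0, ‖x‖ < r - 1 →
      1 - ⟪N.n (x, 0), G.n (pr G 0 x, 0)⟫_ℝ ^ 2 ≤ 25 * δ / min ρ₀ ρ₁) ∧
    InjOn (pr G 0) (N.sl 0 ∩ ball 0 (r - 1)) := by
  set ρ := min ρ₀ ρ₁ with hρ
  have p0 : 0 < ρ := lt_min h0 h1
  have p1 : ρ ≤ 1 := (min_le_left _ _).trans h01
  have k := gr_tube (S := G) (N := N) (t := 0) (t' := 0) (ρ := ρ) (δ := δ) (U := ball 0 r)
    (V := ball 0 m) hc.greg
    (fun y hy hb => Rch.reach_mono (hc.greg.norm_n (p := (y, 0)) hy) (ctx_reach hc y hy hb)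
      (min_le_left _ _)) hc.reg isOpen_ball
    (fun y hy hb => Rch.reach_mono (hc.reg.norm_n (p := (y, 0)) hy)
      (hN y hy (mem_ball_zero_iff.1 hb)).1 (min_le_right _ _))
    (fun y hy _ => (ctx_closed hc).closure_subset hy) hδ hδ' fun w hw hb => by
      obtain ⟨-, a, b⟩ := hN w hw (mem_ball_zero_iff.1 hb)
      exact ⟨⟨_, pr_mem hc.greg (ctx_reach hc) a, pr_memU hc.greg (ctx_reach hc) a, _,
        b.trans_lt (by linarith), dec hc.greg (ctx_reach hc) a⟩, b⟩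
  have hB : ∀ x : E, ‖x‖ < r - 1 → closedBall x (2 * √(δ * ρ)) ⊆ ball 0 r := by
    intro x hx y hy
    have a : √(δ * ρ) ≤ 1 / 2 := Real.sqrt_le_iff.2 ⟨by norm_num, by nlinarith⟩
    have b := norm_sub_norm_le y x
    have c := mem_closedBall_iff_norm.1 hy
    rw [mem_ball_zero_iff]; linarith
  exact ⟨fun x hx hr => k.1 x hx (hB x hr),
    fun x hx y hy => k.2 ⟨hx.1, hB x (mem_ball_zero_iff.1 hx.2)⟩
      ⟨hy.1, hB y (mem_ball_zero_iff.1 hy.2)⟩⟩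

/-- `H1` in terms of `gam` -/
theorem H1_eq (hc : R.Ctx N Λ G m ρ₀) {s : ℝ}
    (hT : ∀ x ∈ N.sl 0, ‖x‖ < s → x ∈ tube G 0 (ball 0 m) ρ₀) :
    R.H1 N G s = ∫⁻ x in ball 0 s, ENNReal.ofReal ((sd G 0 x ^ 2 +
      N.gam (ht (sd G 0)) (ht (sd G 0)) (x, 0)) * gau 0 1 x) ∂N.mu 0 := by
  refine lintegral_congr_ae ?_
  filter_upwards [ae_restrict_of_ae (Tr.ae_sl hc.reg 0), ae_restrict_mem measurableSet_ball]
    with x hx hb
  rw [(ctx_tub hc).gam_ht hc.greg hc.reg (p := (x, 0)) hx (hT x hx (mem_ball_zero_iff.1 hb))]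
  rfl

theorem enS_holds : R.EnS := by
  intro Λ ρ₀ ρ₁ h0 h01 h1
  obtain ⟨C, hC, hg⟩ := gau_out
  set L := max Λ 0 with hL
  have L0 : 0 ≤ L := le_max_right _ _
  have p0 : 0 < min ρ₀ ρ₁ := lt_min h0 h1
  have CL : 0 ≤ C * L := by positivity
  refine ⟨min ρ₀ ρ₁ / 100, 3 * (2 / ρ₀) ^ 2 + 2 + 5 * (C * L), by positivity, by positivity,
    fun N G m r ε M B hc hr hm hN hM hB hε hH hG => ?_⟩
  have hAR : N.AR L := fun t y s hs => (hc.ar t y s hs).trans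
    (ENNReal.ofReal_le_ofReal (mul_le_mul_of_nonneg_right (le_max_left _ _) (sq_nonneg s)))
  obtain ⟨g1, g2⟩ := hg N L 0 L0 hAR
  have hT : ∀ x ∈ N.sl 0, ‖x‖ < r - 1 → x ∈ tube G 0 (ball 0 m) ρ₀ := fun x hx h =>
    (hN x hx (by linarith)).2.1
  rw [H1_eq hc hT] at hH
  have key := fs_le (e := ε) (B' := ball 0 m) (ctx_tub hc) hc.greg hc.reg (κ := 2 / ρ₀)
    (by positivity) hB hM CL (by positivity)
    (fun x hx => hT x hx.1 (mem_ball_zero_iff.1 hx.2))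
    (en_gr hc h0 h01 h1 (by positivity) le_rfl hN).2 (fun x hx h => ?_) hG hH g1
    (g2 5 (r - 1) (by norm_num) (by linarith))
  · have e : -(1 - (5 : ℝ)⁻¹) * (r - 1) ^ 2 / 4 = -(r - 1) ^ 2 / 5 := by ring
    rw [e] at key
    have x0 := Real.exp_pos (-(r - 1) ^ 2 / 5)
    have k0 : 0 ≤ 3 * (2 / ρ₀) ^ 2 + 2 := by positivity
    nlinarith [mul_nonneg k0 (sq_nonneg ε), mul_nonneg k0 x0.le, mul_nonneg CL hM,
      mul_nonneg CL (sq_nonneg ε)]
  · have a := hT x hx h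
    have b := pr_memU hc.greg (ctx_reach hc) a
    refine ⟨ctx_A2 hc h0 a, ?_, b, hε _ (pr_mem hc.greg (ctx_reach hc) a) (mem_ball_zero_iff.1 b)⟩
    have c := (hN x hx (by linarith)).2.2
    have d : min ρ₀ ρ₁ ≤ ρ₀ := min_le_left _ _
    rw [← mul_div_assoc, div_le_iff₀ h0]
    linarith

end Crest.Agent.N250.Sg

end
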